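import Vale.Agent.P271L61.Defs
import Mathlib.AlgebraicGeometry.ProjectiveSpectrum.Proper
import Mathlib.AlgebraicGeometry.Morphisms.ClosedImmersion
import Mathlib.RingTheory.MvPolynomial.Homogeneous

/-!
# Projective schemes over `ℂ`; bounds in Fujita's freeness problem
-/

open CategoryTheory AlgebraicGeometry

namespace Vale.Agent.P271L

noncomputable section

attribute [local instance] MvPolynomial.gradedAlgebra

/-- The projective space `ℙ^N = Proj ℂ[x_0, …, x_N]`. -/
def projSpace (N : ℕ) : Scheme.{0} := Proj (MvPolynomial.homogeneousSubmodule (Fin (N + 1)) ℂ)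

/-- The structure morphism of the projective space. -/
def projStr (N : ℕ) : projSpace N ⟶ Spec (CommRingCat.of ℂ) :=
  Proj.toSpecZero (MvPolynomial.homogeneousSubmodule (Fin (N + 1)) ℂ) ≫ Spec.map
    (CommRingCat.ofHom (algebraMap ℂ (MvPolynomial.homogeneousSubmodule (Fin (N + 1)) ℂ 0)))

/-- A projective scheme over `ℂ`: a closed subscheme of some `ℙ^N`. -/
def IsProjective {X : Scheme.{0}} (f : X ⟶ Spec (CommRingCat.of ℂ)) : Prop :=
  ∃ (N : ℕ) (j : X ⟶ projSpace N), IsClosedImmersion j ∧ j ≫ projStr N = f

/-- `K_X + m L` is globally generated for all smooth connected projective varieties `X` of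
dimension `n`, all ample line bundles `L` on `X` and all `m ≥ m₀`. -/
def IsBound (n m₀ : ℕ) : Prop :=
  ∀ (X : Scheme.{0}) (f : X ⟶ Spec (CommRingCat.of ℂ)), SmoothOfRelativeDimension n f →
    IsProjective f → ConnectedSpace X → ∀ L : X.Modules, IsLineBundle L → IsAmple L →
      ∀ m, m₀ ≤ m → IsGloballyGenerated (tensor (canonical f n) (pow L m))

end

end Vale.Agent.P271L
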