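import Vale.Agent.P271S61.PA
import Vale.Agent.P271S61.Defs

/-!
# The standard charts of the projective space
-/

set_option linter.all false

open CategoryTheory AlgebraicGeometry Opposite TopologicalSpace

namespace Vale.Agent.P271S

attribute [local instance] MvPolynomial.gradedAlgebra

section Proj

open HomogeneousLocalization

variable {A : Type} [CommRing A] {σ : Type} [SetLike σ A] [AddSubgroupClass σ A] (𝒜 : ℕ → σ)
  [GradedRing 𝒜] {f g h : A} (hf : f ∈ 𝒜 1) (hg : g ∈ 𝒜 1) (hh : h ∈ 𝒜 1)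

/-- The function `g / f` on `D₊(f)`. -/
noncomputable def frac : Γ(Proj 𝒜, Proj.basicOpen 𝒜 f) :=
  Proj.awayToSection 𝒜 f (Away.mk 𝒜 hf 1 g (by simpa using hg))

theorem val_germ_frac (p : Proj 𝒜) (hp : p ∈ Proj.basicOpen 𝒜 f) :
    (Proj.stalkIso' 𝒜 p ((Proj 𝒜).presheaf.germ _ p hp (frac 𝒜 hf hg))).val =
      Localization.mk g ⟨f, hp⟩ := by
  have h1 := ProjectiveSpectrum.Proj.awayToSection_apply 𝒜 f
    (Away.mk 𝒜 hf 1 g (by simpa using hg)) ⟨p, hp⟩
  rw [Away.val_mk, Localization.mk_eq_mk', IsLocalization.map_mk'] at h1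
  refine (congrArg HomogeneousLocalization.val (Proj.stalkIso'_germ 𝒜 _ p hp _)).trans
    (h1.trans ?_)
  rw [Localization.mk_eq_mk']
  congr 1
  exact Subtype.ext (pow_one f)

theorem isUnit_germ_frac (p : Proj 𝒜) (hp : p ∈ Proj.basicOpen 𝒜 f) :
    IsUnit ((Proj 𝒜).presheaf.germ _ p hp (frac 𝒜 hf hg)) ↔ p ∈ Proj.basicOpen 𝒜 g := by
  refine (MulEquiv.isUnit_map (f := Proj.stalkIso' 𝒜 p)).symm.trans ?_
  rw [← isUnit_iff_isUnit_val, val_germ_frac, Localization.mk_eq_mk',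
    IsLocalization.AtPrime.isUnit_mk'_iff]
  rfl

theorem germ_frac_mul (p : Proj 𝒜) (hp : p ∈ Proj.basicOpen 𝒜 f) (hq : p ∈ Proj.basicOpen 𝒜 g) :
    (Proj 𝒜).presheaf.germ _ p hp (frac 𝒜 hf hh) =
      (Proj 𝒜).presheaf.germ _ p hp (frac 𝒜 hf hg) *
        (Proj 𝒜).presheaf.germ _ p hq (frac 𝒜 hg hh) := by
  refine (Proj.stalkIso' 𝒜 p).injective (val_injective _ ?_)
  refine Eq.trans ?_ (congrArg val (map_mul (Proj.stalkIso' 𝒜 p) _ _)).symm
  rw [val_mul, val_germ_frac, val_germ_frac, val_germ_frac, Localization.mk_mul,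
    Localization.mk_eq_mk_iff, Localization.r_iff_exists]
  exact ⟨1, by simp only [OneMemClass.coe_one, Submonoid.coe_mul]; ring⟩

end Proj

theorem cover (ι : Type) (p : Proj (MvPolynomial.homogeneousSubmodule ι ℂ)) :
    ∃ i, p ∈ Proj.basicOpen (MvPolynomial.homogeneousSubmodule ι ℂ) (MvPolynomial.X i) := by
  have h : Algebra.adjoin (MvPolynomial.homogeneousSubmodule ι ℂ 0)
      (Set.range (MvPolynomial.X : ι → MvPolynomial ι ℂ)) = ⊤ := by
    refine top_le_iff.1 fun a _ => ?_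
    induction a using MvPolynomial.induction_on with
    | C c => exact Subalgebra.algebraMap_mem _ (⟨_, MvPolynomial.isHomogeneous_C ι c⟩ :
        MvPolynomial.homogeneousSubmodule ι ℂ 0)
    | add a b ha hb => exact add_mem (ha trivial) (hb trivial)
    | mul_X a i ha => exact mul_mem (ha trivial) (Algebra.subset_adjoin ⟨i, rfl⟩)
  have h2 := Proj.iSup_basicOpen_eq_top' (MvPolynomial.homogeneousSubmodule ι ℂ) MvPolynomial.X
    (fun i => ⟨1, MvPolynomial.isHomogeneous_X ℂ i⟩) h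
  exact Opens.mem_iSup.1 (h2.ge trivial)

open MvPolynomial HomogeneousLocalization

variable {ι : Type} [Fintype ι]

/-- The projective space. -/
noncomputable def Pj (ι : Type) : Scheme.{0} := Proj (gr ι)

/-- The structure morphism of the projective space. -/
noncomputable def str (ι : Type) : Pj ι ⟶ Spec (CommRingCat.of ℂ) :=
  Proj.toSpecZero (gr ι) ≫ Spec.map (CommRingCat.ofHom (algebraMap ℂ (gr ι 0)))

/-- The standard chart. -/
noncomputable def chartP (j : ι) : Spec (.of (Away (gr ι) (X j))) ⟶ Pj ι :=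
  Proj.awayι (gr ι) (X j) (X_mem_gr j) one_pos

/-- The open set `x_j ≠ 0`. -/
noncomputable def DP (j : ι) : (Pj ι).Opens := Proj.basicOpen (gr ι) (X j)

theorem chartP_str (j : ι) :
    chartP j ≫ str ι = Spec.map (CommRingCat.ofHom (cz (X j))) := by
  have h1 := Proj.awayι_toSpecZero (gr ι) (X j) (X_mem_gr j) one_pos
  have h2 : chartP j ≫ str ι = (Proj.awayι (gr ι) (X j) (X_mem_gr j) one_pos ≫
      Proj.toSpecZero (gr ι)) ≫ Spec.map (CommRingCat.ofHom (algebraMap ℂ (gr ι 0))) := rfl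
  rw [h2, h1, ← Spec.map_comp]
  rfl

/-- The functions on the chart. -/
noncomputable def tS (j : ι) :
    CommRingCat.of (Away (gr ι) (X j)) ≅ Γ(Pj ι, DP j) :=
  Proj.basicOpenIsoAway (gr ι) (X j) (X_mem_gr j) one_pos

theorem affine_DP (j : ι) : IsAffineOpen (DP j) :=
  Proj.isAffineOpen_basicOpen (gr ι) (X j) (X_mem_gr j) one_pos

theorem chart_eq (j : ι) :
    (DP j).toSpecΓ ≫ Spec.map (tS j).hom ≫ chartP j = (DP j).ι := by
  have h := (Proj.basicOpenIsoSpec (gr ι) (X j) (X_mem_gr j) one_pos).hom_inv_id_assoc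
    (Proj.basicOpen (gr ι) (X j)).ι
  exact (Category.assoc _ _ _).symm.trans h

theorem toSpec_appLE {Y : Scheme.{0}} {R : CommRingCat.{0}} (f : Y ⟶ Spec R) (U : Y.Opens) :
    U.toSpecΓ ≫ Spec.map ((Scheme.ΓSpecIso R).inv ≫ f.appLE ⊤ U le_top) = U.ι ≫ f := by
  have e : U ≤ f ⁻¹ᵁ ⊤ := le_top
  change U.toSpecΓ ≫ Spec.map ((Scheme.ΓSpecIso R).inv ≫ f.appLE ⊤ U e) = U.ι ≫ f
  rw [Spec.map_comp, Scheme.Opens.toSpecΓ_SpecMap_appLE_assoc, Scheme.Opens.toSpecΓ_top,
    Category.assoc, Scheme.Hom.resLE_comp_ι_assoc, toSpecΓ_SpecMap_ΓSpecIso_inv, Category.comp_id]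

theorem cz_tS (j : ι) : CommRingCat.ofHom (cz (X j)) ≫ (tS j).hom =
    (Scheme.ΓSpecIso (CommRingCat.of ℂ)).inv ≫ (str ι).appLE ⊤ (DP j) le_top := by
  apply Spec.map_injective
  rw [← cancel_epi (affine_DP j).isoSpec.hom, IsAffineOpen.isoSpec_hom, Spec.map_comp,
    ← chartP_str]
  refine Eq.trans ?_ (toSpec_appLE (R := CommRingCat.of ℂ) (str ι) (DP j)).symm
  exact (congrArg ((DP j).toSpecΓ ≫ ·) (Category.assoc _ _ _).symm).trans
    ((Category.assoc _ _ _).symm.trans (congrArg (· ≫ str ι) (chart_eq j)))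

theorem smooth_str (m : ℕ) : SmoothOfRelativeDimension m (str (Fin (m + 1))) := by
  refine ⟨fun x => ?_⟩
  obtain ⟨j, hj⟩ := cover _ x
  refine ⟨⊤, isAffineOpen_top (Spec (CommRingCat.of ℂ)), DP j, affine_DP j, hj, le_top, ?_⟩
  have h1 := RingHom.isStandardSmoothOfRelativeDimension_respectsIso.1 _
    (tS j).commRingCatIsoToRingEquiv (std_cz j)
  have h2 := RingHom.isStandardSmoothOfRelativeDimension_respectsIso.2 _
    (Scheme.ΓSpecIso (CommRingCat.of ℂ)).commRingCatIsoToRingEquiv h1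
  have h3 := (Iso.eq_inv_comp _).1 (cz_tS j)
  rw [← h3]
  exact h2

/-- The function `x_i / x_j` on the chart `j`. -/
noncomputable def sec (j i : ι) : Γ(Pj ι, DP j) := (tS j).hom.hom (fr i j)

/-- The generic point. -/
noncomputable def eta (ι : Type) [Nonempty ι] : Pj ι :=
  (⟨⊥, Ideal.isPrime_bot, fun h => by
    obtain ⟨i⟩ := ‹Nonempty ι›
    have h1 : (X i : MvPolynomial ι ℂ) ∈ HomogeneousIdeal.irrelevant (gr ι) :=
      HomogeneousIdeal.mem_irrelevant_of_mem _ one_pos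
        ((mem_homogeneousSubmodule _ _).2 (isHomogeneous_X _ _))
    exact X_ne_zero i (h h1)⟩ : ProjectiveSpectrum (gr ι))

theorem connected_Pj [Nonempty ι] : ConnectedSpace (Pj ι) := by
  have h : ∀ y : Pj ι, y ∈ closure ({eta ι} : Set (Pj ι)) := fun y =>
    (ProjectiveSpectrum.le_iff_mem_closure (gr ι) (eta ι) y).1 fun a ha => by
      rw [show a = 0 from ha]
      exact zero_mem _
  have h1 : IsIrreducible (closure ({eta ι} : Set (Pj ι))) := isIrreducible_singleton.closure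
  rw [Set.eq_univ_of_forall h] at h1
  have : IrreducibleSpace (Pj ι) := (irreducibleSpace_def _).2 h1
  infer_instance

theorem exists_proj (n : ℕ) : ∃ (X : Scheme.{0}) (f : X ⟶ Spec (CommRingCat.of ℂ))
    (_ : SmoothOfRelativeDimension n f) (_ : IsProper f) (_ : ConnectedSpace X)
    (U : Fin (n + 1) → X.Opens) (s : ∀ i, Fin (n + 1) → Γ(X, U i)), P271L.IsProjective f ∧
    (∀ i, IsAffineOpen (U i)) ∧ (∀ x, ∃ i, x ∈ U i) ∧ (∀ i, (U i : Set X).Nonempty) ∧
    (∀ i k x (h : x ∈ U i), IsUnit (X.presheaf.germ _ x h (s i k)) ↔ x ∈ U k) ∧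
    (∀ i k l x (h : x ∈ U i) (hk : x ∈ U k), X.presheaf.germ _ x h (s i l) =
      X.presheaf.germ _ x h (s i k) * X.presheaf.germ _ x hk (s k l)) ∧
    (∀ i (a : Γ(X, U i)), ∃ p : MvPolynomial (Fin (n + 1)) ℂ,
      MvPolynomial.eval₂ (P271L.cst f (U i)).hom (s i) p = a) ∧
    ∀ i k, i ≠ k → ¬ IsUnit (s i k) := by
  refine ⟨Pj (Fin (n + 1)), str _, smooth_str n, P297G93.isProper_proj _, connected_Pj, DP, sec,
    ⟨n, 𝟙 (P271L.projSpace n), (inferInstance : IsClosedImmersion (𝟙 (P271L.projSpace n))),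
      Category.id_comp (P271L.projStr n)⟩, affine_DP, cover _, fun i => ⟨eta _, X_ne_zero i⟩,
    fun i k x h => isUnit_germ_frac _ (X_mem_gr i) (X_mem_gr k) x h,
    fun i k l x h hk => germ_frac_mul _ (X_mem_gr i) (X_mem_gr k) (X_mem_gr l) x h hk,
    fun i a => ?_, fun i k hik hu => not_isUnit_fr hik ?_⟩
  · obtain ⟨p, hp⟩ := exists_eval₂ i ((tS i).inv.hom a)
    refine ⟨p, ?_⟩
    have h1 := eval₂_comp_left (tS i).hom.hom (cz (X i)) (fun k => fr k i) p
    have h2 : (tS i).hom.hom.comp (cz (X i)) = (P271L.cst (str _) (DP i)).hom :=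
      congrArg CommRingCat.Hom.hom (cz_tS i)
    rw [hp, h2] at h1
    exact h1.symm.trans ((tS i).inv_hom_id_apply a)
  · have h1 := hu.map (tS i).inv.hom
    have h2 : (tS i).inv.hom (sec i k) = fr k i := (tS i).hom_inv_id_apply _
    rwa [h2] at h1

end Vale.Agent.P271S
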