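import Vale.Agent.P271S61.Line
import Vale.Agent.P271L23.LB
import Vale.Agent.P297L41.E3

/-!
# `K_X + n L` has no section on a variety with the charts of the projective space
-/

open CategoryTheory Opposite AlgebraicGeometry TopologicalSpace

namespace Vale.Agent.P271L

open Vale.Agent.P299.G Vale.Agent.P297L

noncomputable section

theorem exists_fields {K : Type} [Field K] [Algebra ℂ K] {n : ℕ} (t : Fin (n + 1) → K)
    (h1 : t 0 = 1) (h0 : ∀ j, t j ≠ 0) (v : Module.Basis (Fin n) K (Derivation ℂ K K))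
    (hv : ∀ k l, v k (t l.succ) = if l = k then 1 else 0) (j : Fin (n + 1)) :
    ∃ w : Fin n → Derivation ℂ K K, v.det w = t j ^ (n + 1) ∧
      ∀ k l, ∃ m : ℤ, w k (t l / t j) = m := by
  have hv0 : ∀ D : Derivation ℂ K K, D (t 0) = 0 := fun D => by rw [h1, D.map_one_eq_zero]
  have hv1 : ∀ k l, ∃ m : ℤ, v k (t l) = m := by
    intro k l
    induction l using Fin.cases with
    | zero => exact ⟨0, by rw [hv0, Int.cast_zero]⟩
    | succ l => exact ⟨if l = k then 1 else 0, by rw [hv]; split_ifs <;> simp⟩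
  induction j using Fin.cases with
  | zero => exact ⟨v, by rw [v.det_self, h1, one_pow], fun k l => by rw [h1, div_one]; exact hv1 k l⟩
  | succ a =>
    let E : Derivation ℂ K K := ∑ k, t k.succ • v k
    have hE : ∀ l : Fin n, E (t l.succ) = t l.succ := by
      intro l
      have h2 : E (t l.succ) = ∑ k, t k.succ • v k (t l.succ) :=
        (congrFun (map_sum (Derivation.coeFnAddMonoidHom (R := ℂ) (A := K) (M := K))
          (fun k => t k.succ • v k) Finset.univ) _).trans (Finset.sum_apply _ _ _)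
      rw [h2, Finset.sum_eq_single l (fun k _ hk => by rw [hv, if_neg hk.symm, smul_zero])
        (fun h => absurd (Finset.mem_univ l) h), hv, if_pos rfl, smul_eq_mul, mul_one]
    have hD : ∀ (D : Derivation ℂ K K) l, (t a.succ • D) (t l / t a.succ) =
        D (t l) - t l / t a.succ * D (t a.succ) := by
      intro D l
      have := h0 a.succ
      rw [Derivation.smul_apply, Derivation.leibniz_div]
      simp only [smul_eq_mul]
      field_simp
    refine ⟨fun k => t a.succ • Function.update v a E k, ?_, fun k l => ?_⟩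
    · have h2 : v.det (Function.update v a E) = t a.succ := by
        rw [AlternatingMap.map_update_sum, Finset.sum_eq_single a (fun k _ hk => by
          rw [AlternatingMap.map_update_smul, v.det.map_update_self v hk.symm, smul_zero])
          (fun h => absurd (Finset.mem_univ a) h), AlternatingMap.map_update_smul,
          Function.update_eq_self, v.det_self, smul_eq_mul, mul_one]
      rw [AlternatingMap.map_smul_univ, h2, Finset.prod_const, Finset.card_univ, Fintype.card_fin,
        smul_eq_mul, pow_succ]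
    · rw [hD]
      by_cases hk : k = a
      · rw [hk, Function.update_self, hE, div_mul_cancel₀ _ (h0 _)]
        induction l using Fin.cases with
        | zero => exact ⟨-1, by rw [hv0, h1]; simp⟩
        | succ l => exact ⟨0, by rw [hE, sub_self, Int.cast_zero]⟩
      · rw [Function.update_of_ne hk, hv, if_neg (Ne.symm hk), mul_zero, sub_zero]
        exact hv1 k l

variable {X : Scheme.{0}} [IsIntegral X] {f : X ⟶ Spec (CommRingCat.of ℂ)} {W : X.Opens}

theorem der_induction [Algebra ℂ X.functionField] (hf : Compat f) (h : genericPoint X ∈ W)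
    {ι : Type} {s : ι → Γ(X, W)}
    (hs : ∀ a, ∃ p : MvPolynomial ι ℂ, MvPolynomial.eval₂ (cst f W).hom s p = a) (w : Dr X)
    (N : Submodule Γ(X, W) Γ(X, W)) (hw : ∀ l, ∃ b ∈ N, w (gk W h (s l)) = gk W h b)
    (a : Γ(X, W)) : ∃ b ∈ N, w (gk W h a) = gk W h b := by
  obtain ⟨p, rfl⟩ := hs a
  induction p using MvPolynomial.induction_on with
  | C c =>
    refine ⟨0, N.zero_mem, ?_⟩
    rw [MvPolynomial.eval₂_C, map_zero]
    exact (congrArg w (hf.gk_cst h c)).trans (w.map_algebraMap c)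
  | add p q hp hq =>
    obtain ⟨b, hb, h1⟩ := hp
    obtain ⟨b', hb', h2⟩ := hq
    exact ⟨b + b', N.add_mem hb hb', by
      rw [MvPolynomial.eval₂_add, map_add, map_add, h1, h2, map_add]⟩
  | mul_X p l hp =>
    obtain ⟨b, hb, h1⟩ := hp
    obtain ⟨b', hb', h2⟩ := hw l
    refine ⟨MvPolynomial.eval₂ (cst f W).hom s p • b' + s l • b,
      N.add_mem (N.smul_mem _ hb') (N.smul_mem _ hb), ?_⟩
    rw [MvPolynomial.eval₂_mul, MvPolynomial.eval₂_X, map_mul, Derivation.leibniz, h1, h2]
    simp only [smul_eq_mul, map_add, map_mul]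

theorem exists_not_free {n : ℕ} (hn : 1 ≤ n) [SmoothOfRelativeDimension n f] [IsProper f]
    (U : Fin (n + 1) → X.Opens) (s : ∀ i, Fin (n + 1) → Γ(X, U i))
    (hU : ∀ i, IsAffineOpen (U i)) (hc : ∀ x, ∃ i, x ∈ U i) (hne : ∀ i, (U i : Set X).Nonempty)
    (hu : ∀ i k x (h : x ∈ U i), IsUnit (X.presheaf.germ _ x h (s i k)) ↔ x ∈ U k)
    (hm : ∀ i k l x (h : x ∈ U i) (hk : x ∈ U k), X.presheaf.germ _ x h (s i l) =
      X.presheaf.germ _ x h (s i k) * X.presheaf.germ _ x hk (s k l))
    (hs : ∀ i (a : Γ(X, U i)), ∃ p : MvPolynomial (Fin (n + 1)) ℂ,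
      MvPolynomial.eval₂ (cst f (U i)).hom (s i) p = a)
    (hnu : ∀ i k, i ≠ k → ¬ IsUnit (s i k)) :
    ∃ L : X.Modules, IsLineBundle L ∧ IsAmple L ∧
      ¬ IsGloballyGenerated (tensor (canonical f n) (pow L n)) := by
  let _ : Algebra ℂ X.functionField := ((gk ⊤ trivial).comp (cst f ⊤).hom).toAlgebra
  have hf : Compat f := fun _ => rfl
  have hg : ∀ i, genericPoint X ∈ U i := fun i => (hne i).elim fun _ hx => gen_mem hx
  let t : Fin (n + 1) → X.functionField := fun i => gk (U 0) (hg 0) (s 0 i)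
  have ht0 : ∀ i, t i ≠ 0 := fun i => ((hu 0 i _ (hg 0)).2 (hg i)).ne_zero
  have hz : ∀ j l, t l = t j * gk (U j) (hg j) (s j l) := fun j l => hm 0 j l _ (hg 0) (hg j)
  have ht1 : t 0 = 1 := mul_left_cancel₀ (ht0 0) ((hz 0 0).symm.trans (mul_one _).symm)
  choose c hc using hc
  have key : ∀ y j, t j = toK y (X.presheaf.germ _ y (hc y) (s (c y) j)) * t (c y) := by
    intro y j
    rw [toK_germ, mul_comm]
    exact hz (c y) j
  obtain ⟨L, T, hT⟩ := exists_line (fun y => t (c y)) (fun y => ht0 _) fun x =>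
    ⟨U (c x), hc x, fun y hy => ⟨_, (hu _ _ y (hc y)).2 hy, key y (c x)⟩⟩
  refine ⟨L, isLineBundle_of_fr T fun x => ⟨_, hT x⟩, fun x => ?_, fun hG => ?_⟩
  · obtain ⟨T1, h1⟩ := exists_ev_pow T 1
    have h2 : ∀ y, Fr T1 y (t (c y)) := fun y => by
      have h3 := h1 y _ (hT y)
      rwa [pow_one] at h3
    obtain ⟨σ, hσ⟩ := exists_of_ev (T := T1) (V := ⊤) (g := t (c x))
      fun z _ => ⟨_, h2 z, _, key z (c x)⟩
    refine ⟨1, σ, U (c x), one_pos, hU _, hc x, fun y => ?_⟩
    rw [vanishesAt_iff (h2 y) σ ((hσ trivial).trans (key y (c x))), not_not]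
    exact (hu _ _ y (hc y)).symm
  obtain ⟨b⟩ := exists_basis_der hf n
  have hfin : Module.Finite X.functionField (Dr X) := Module.Finite.of_basis b
  let Φ : Dr X →ₗ[X.functionField] (Fin n → X.functionField) :=
    { toFun := fun w k => w (t k.succ)
      map_add' := fun _ _ => rfl
      map_smul' := fun _ _ => rfl }
  have hΦ : Function.Injective Φ := by
    refine (injective_iff_map_eq_zero Φ).2 fun w hw => der_ext (hU 0) (hg 0) fun a => ?_
    obtain ⟨b, hb, h1⟩ := der_induction hf (hg 0) (hs 0) w ⊥ (fun l => ⟨0, rfl, by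
      rw [map_zero]
      induction l using Fin.cases with
      | zero => exact (congrArg w ht1).trans w.map_one_eq_zero
      | succ l => exact congrFun hw l⟩) a
    rw [h1, (Submodule.mem_bot _).1 hb, map_zero, Derivation.zero_apply]
  let e := Φ.linearEquivOfInjective hΦ (by
    rw [Module.finrank_eq_card_basis b, Module.finrank_fintype_fun_eq_card])
  let v : Module.Basis (Fin n) X.functionField (Dr X) := Module.Basis.ofEquivFun e
  have hv : ∀ k l, v k (t l.succ) = if l = k then 1 else 0 := by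
    intro k l
    have h1 : v.repr (v k) l = v k (t l.succ) := rfl
    rw [← h1, v.repr_self, Finsupp.single_apply]
    exact if_congr eq_comm rfl rfl
  obtain ⟨T0, h0⟩ := P297L.exists_ev_canonical hf v.det (v := v)
    (by rw [v.det_self]; exact one_ne_zero)
  choose d hd0 hF hd using h0
  obtain ⟨T1, h1⟩ := exists_ev_pow T n
  obtain ⟨T2, h2⟩ := exists_ev_tensor T0 T1
  have h3 : ∀ y, Fr T2 y ((v.det (d y))⁻¹ * t (c y) ^ n) :=
    fun y => h2 y _ _ (hF y) (h1 y _ (hT y))
  obtain ⟨σ, hσ⟩ := hG (genericPoint X)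
  have h4 : ∀ y : X, ∃ a : X.presheaf.stalk y, T2.θ ⊤ trivial σ =
      toK y (a * X.presheaf.germ _ y (hc y) (s (c y) 0)) := by
    intro y
    obtain ⟨a, ha⟩ := (h3 y).exists_stalk (V := ⊤) trivial σ
    obtain ⟨w, hw, hw'⟩ := exists_fields t ht1 ht0 v hv (c y)
    obtain ⟨a', ha'⟩ := (hd y y specializes_rfl).2 w fun k => pres_of (hU (c y)) (hc y) fun g => by
      obtain ⟨b, -, h5⟩ := der_induction hf (hg (c y)) (hs (c y)) (w k) ⊤ (fun l => by
        obtain ⟨m, hm'⟩ := hw' k l
        refine ⟨m, trivial, ?_⟩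
        rw [map_intCast, ← hm', hz (c y) l, mul_div_cancel_left₀ _ (ht0 _)]) g
      exact ⟨b, h5⟩
    have h5 := key y 0
    have h6 := hd0 y
    have h7 := ht0 (c y)
    refine ⟨a * a', ha.trans ?_⟩
    rw [map_mul, map_mul, eq_div_of_mul_eq h7 (h5.symm.trans ht1),
      eq_div_of_mul_eq h6 (ha'.symm.trans hw)]
    field_simp
    ring
  obtain ⟨g, hg'⟩ := exists_of_ev (M := triv X) (T := evTriv X) (V := ⊤)
    (g := T2.θ ⊤ trivial σ) fun z _ => ⟨1, fr_triv z, (h4 z).elim fun a ha =>
      ⟨_, ha.trans (mul_one _).symm⟩⟩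
  have h5 : gk ⊤ trivial g = T2.θ ⊤ trivial σ := hg' trivial
  have h6 : (show Γ(X, ⊤) from g) ≠ 0 := by
    intro h
    refine hσ ((vanishesAt_iff (h3 _) σ (c := 0) ?_).2 not_isUnit_zero)
    rw [map_zero, zero_mul, ← h5]
    exact (congrArg (gk ⊤ trivial) h).trans (map_zero _)
  obtain ⟨g', hg''⟩ := (isField_of_universallyClosed ℂ f).mul_inv_cancel h6
  have h7 : ∀ y : X, y ∈ U 0 := by
    intro y
    obtain ⟨a, ha⟩ := h4 y
    have h8 : X.presheaf.germ ⊤ y trivial g = a * X.presheaf.germ _ y (hc y) (s (c y) 0) :=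
      toK_injective y ((toK_germ (W := ⊤) trivial g).trans (h5.trans ha))
    have h9 : IsUnit (X.presheaf.germ ⊤ y trivial g) :=
      (IsUnit.of_mul_eq_one g' hg'').map (X.presheaf.germ ⊤ y trivial).hom
    rw [h8] at h9
    exact (hu _ _ y (hc y)).1 (isUnit_of_mul_isUnit_right h9)
  exact hnu (Fin.succ ⟨0, hn⟩) 0 (Fin.succ_ne_zero _)
    (X.toRingedSpace.isUnit_of_isUnit_germ _ _ fun x hx => (hu _ _ x hx).2 (h7 x))

end

end Vale.Agent.P271L
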