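import Vale.Agent.P271L61.F
import Vale.Agent.P271S61.Sharp
import Vale.Agent.P271S61.PB

/-!
# The least bound
-/

open CategoryTheory AlgebraicGeometry

namespace Vale.Agent.P271L

theorem IsProjective.isProper {X : Scheme.{0}} {f : X ⟶ Spec (CommRingCat.of ℂ)}
    (h : IsProjective f) : IsProper f := by
  obtain ⟨N, j, hj, rfl⟩ := h
  have : IsProper (projStr N) := P297G93.isProper_proj _
  infer_instance

theorem isLeast_of_hub (hub : P271.Sch.HubFujita) (n : ℕ) (hn : 1 ≤ n) :
    IsLeast {m₀ : ℕ | IsBound n m₀} (n + 1) := by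
  refine ⟨fun X f _ hp _ L hL => ?_, fun m₀ h => ?_⟩
  · have := hp.isProper
    exact (main_of_hub hub n X f L hL).2.2
  · by_contra hlt
    obtain ⟨X, f, hs, hp, hc, U, s, h0, h1, h2, h3, h4, h5, h6, h7⟩ := P271S.exists_proj n
    have := SmoothOfRelativeDimension.smooth n f
    have := P297G93.isIntegral_of_smooth f
    obtain ⟨L, hL, hA, hG⟩ := exists_not_free hn U s h1 h2 h3 h4 h5 h6 h7
    exact hG (h X f hs h0 hc L hL hA n (Nat.lt_succ_iff.1 (not_le.1 hlt)))

end Vale.Agent.P271L
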