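import Vale.Agent.P271L61.C

/-!
# The line bundle with given local generators
-/

open CategoryTheory Opposite AlgebraicGeometry TopologicalSpace

namespace Vale.Agent.P271L

open Vale.Agent.P299.G

noncomputable section

variable {X : Scheme.{0}} [IsIntegral X] (u : X → X.functionField)

/-- The rational functions on `W` which are locally regular multiples of `u`. -/
def mult (W : X.Opens) : AddSubgroup (PLift (genericPoint X ∈ W) → X.functionField) where
  carrier := {g | ∀ (x : X) (hx : x ∈ W), ∃ c : X.presheaf.stalk x,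
    g ⟨gen_mem hx⟩ = toK x c * u x}
  zero_mem' x hx := ⟨0, by rw [map_zero, zero_mul]; rfl⟩
  add_mem' {g g'} hg hg' x hx := by
    obtain ⟨c, hc⟩ := hg x hx
    obtain ⟨c', hc'⟩ := hg' x hx
    exact ⟨c + c', by rw [map_add, add_mul, ← hc, ← hc']; rfl⟩
  neg_mem' {g} hg x hx := by
    obtain ⟨c, hc⟩ := hg x hx
    exact ⟨-c, by rw [map_neg, neg_mul, ← hc]; rfl⟩

/-- The multiplication by regular functions. -/
def multSMul (W : X.Opens) (a : Γ(X, W)) (g : mult u W) : mult u W :=
  ⟨fun h => gk W h.down a * g.1 h, fun x hx => by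
    obtain ⟨c, hc⟩ := g.2 x hx
    exact ⟨X.presheaf.germ W x hx a * c, by rw [map_mul, toK_germ, mul_assoc, ← hc]⟩⟩

/-- The module structure. -/
abbrev multModule (W : X.Opens) : Module Γ(X, W) (mult u W) where
  smul := multSMul u W
  one_smul g := Subtype.ext (funext fun h =>
    (congrArg (· * g.1 h) (gk W h.down).map_one).trans (one_mul _))
  mul_smul a b g := Subtype.ext (funext fun h =>
    (congrArg (· * g.1 h) ((gk W h.down).map_mul a b)).trans (mul_assoc _ _ _))
  smul_zero a := Subtype.ext (funext fun h => mul_zero (gk W h.down a))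
  smul_add a g g' := Subtype.ext (funext fun h => mul_add (gk W h.down a) (g.1 h) (g'.1 h))
  add_smul a b g := Subtype.ext (funext fun h =>
    (congrArg (· * g.1 h) ((gk W h.down).map_add a b)).trans (add_mul _ _ _))
  zero_smul g := Subtype.ext (funext fun h =>
    (congrArg (· * g.1 h) (gk W h.down).map_zero).trans (zero_mul _))

/-- The restriction. -/
def multRes {W W' : X.Opens} (e : W' ≤ W) : mult u W →+ mult u W' :=
  AddMonoidHom.mk' (fun g => ⟨fun h => g.1 ⟨e h.down⟩, fun x hx => g.2 x (e hx)⟩) fun _ _ => rfl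

/-- The presheaf of abelian groups. -/
def multAb : X.Opensᵒᵖ ⥤ Ab.{0} where
  obj W := AddCommGrpCat.of (mult u W.unop)
  map i := AddCommGrpCat.ofHom (multRes u i.unop.le)
  map_id _ := rfl
  map_comp _ _ := rfl

/-- The presheaf of modules. -/
def multPre : Pre X :=
  @PresheafOfModules.ofPresheaf _ _ (und X.presheaf) (multAb u) (fun W => multModule u W.unop)
    fun _ _ i a g => Subtype.ext (funext fun h =>
      congrArg (· * g.1 ⟨i.unop.le h.down⟩) (gk_r i.unop.le h.down a).symm)

/-- The values at the generic point. -/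
def multEv : Ev (multPre u) X.functionField where
  θ W h := AddMonoidHom.mk' (fun g => (show mult u W from g).1 ⟨h⟩) fun _ _ => rfl
  smul _ _ _ _ := rfl
  res _ _ _ := rfl

/-- A line bundle with given local generators. -/
theorem exists_line (h0 : ∀ x, u x ≠ 0) (hloc : ∀ x : X, ∃ W : X.Opens, x ∈ W ∧ ∀ y ∈ W,
    ∃ c : X.presheaf.stalk y, IsUnit c ∧ u x = toK y c * u y) :
    ∃ (L : X.Modules) (T : Ev (pv L) X.functionField), ∀ x, Fr T x (u x) := by
  obtain ⟨T, hT⟩ := (multEv u).exists_sh
  refine ⟨sheafify (multPre u), T, fun x => ?_⟩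
  obtain ⟨W, hx, hW⟩ := hloc x
  let b : mult u W := ⟨fun _ => u x, fun y hy => (hW y hy).imp fun _ h => h.2⟩
  have hb : Gen1 (multPre u) W b := by
    intro V e p z hz
    obtain ⟨c, hc⟩ := (show mult u V from p).2 z hz
    obtain ⟨c', hc', h1⟩ := hW z (e hz)
    obtain ⟨d, hd⟩ := hc'.exists_left_inv
    obtain ⟨V', hV', a, ha⟩ := X.presheaf.exists_germ_eq (c * d)
    refine ⟨V ⊓ V', inf_le_left, ⟨hz, hV'⟩, r inf_le_right a, Subtype.ext (funext fun h => ?_)⟩
    change (show mult u V from p).1 ⟨gen_mem hz⟩ = gk (V ⊓ V') h.down (r inf_le_right a) * u x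
    rw [gk_r, ← toK_germ hV', ha, hc, h1, ← mul_assoc, ← map_mul, mul_assoc c, hd, mul_one]
  exact ⟨h0 x, W, hx, eta (multPre u) W b, hb.sh, hT W _ b⟩

end

end Vale.Agent.P271L
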