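import Vale.Agent.P271L61.Defs
import Vale.Agent.P297L93.IntG
import Mathlib.RingTheory.RingHom.StandardSmooth

/-!
# The standard charts of the projective space: the rings
-/

set_option linter.all false

open CategoryTheory AlgebraicGeometry Opposite TopologicalSpace

namespace Vale.Agent.P271S

open MvPolynomial HomogeneousLocalization

attribute [local instance] MvPolynomial.gradedAlgebra

/-- The grading of the polynomial ring by the degree. -/
abbrev gr (ι : Type) : ℕ → Submodule ℂ (MvPolynomial ι ℂ) :=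
  MvPolynomial.homogeneousSubmodule ι ℂ

variable {ι : Type} [Fintype ι]

theorem X_mem_gr (i : ι) : (X i : MvPolynomial ι ℂ) ∈ gr ι 1 :=
  (mem_homogeneousSubmodule _ _).2 (isHomogeneous_X _ _)

theorem X_mem_gr' (i : ι) : (X i : MvPolynomial ι ℂ) ∈ gr ι (1 • 1) :=
  X_mem_gr i

/-- The evaluation of a homogeneous polynomial at a multiple. -/
theorem eval₂_mul_of_mem {B : Type*} [CommRing B] (c : ℂ →+* B) (u : ι → B) (t : B)
    {n : ℕ} {a : MvPolynomial ι ℂ} (ha : a ∈ gr ι n) :
    eval₂ c (fun i => t * u i) a = t ^ n * eval₂ c u a := by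
  rw [eval₂_eq', eval₂_eq', Finset.mul_sum]
  refine Finset.sum_congr rfl fun d hd => ?_
  have h1 : (mem_homogeneousSubmodule n a).1 ha = ha := rfl
  have h2 : ∑ i, d i = n := by
    have h3 := ((mem_homogeneousSubmodule n a).1 ha) (mem_support_iff.1 hd)
    rw [← h3, Finsupp.weight_apply, Finsupp.sum_fintype _ _ (by simp)]
    exact Finset.sum_congr rfl fun i _ => by simp
  have h4 : ∏ i, (t * u i) ^ d i = t ^ n * ∏ i, u i ^ d i := by
    rw [← h2, ← Finset.prod_pow_eq_pow_sum, ← Finset.prod_mul_distrib]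
    exact Finset.prod_congr rfl fun i _ => mul_pow _ _ _
  rw [h4]
  ring

/-- The constants. -/
noncomputable def cz (x : MvPolynomial ι ℂ) : ℂ →+* Away (gr ι) x :=
  (fromZeroRingHom (gr ι) _).comp (algebraMap ℂ (gr ι 0))

theorem val_cz (x : MvPolynomial ι ℂ) (c : ℂ) :
    (cz x c).val = algebraMap (MvPolynomial ι ℂ) (Localization.Away x) (C c) := by
  rw [← Localization.mk_one_eq_algebraMap]
  rfl

/-- The fraction `x_i / x_j`. -/
noncomputable def fr (i j : ι) : Away (gr ι) (X j) :=
  Away.mk (gr ι) (X_mem_gr j) 1 (X i) (X_mem_gr' i)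

theorem val_fr (i j : ι) :
    (fr (ι := ι) i j).val * algebraMap (MvPolynomial ι ℂ) (Localization.Away (X j)) (X j) =
      algebraMap (MvPolynomial ι ℂ) (Localization.Away (X j)) (X i) := by
  rw [fr, Away.val_mk, ← Localization.mk_one_eq_algebraMap, ← Localization.mk_one_eq_algebraMap,
    Localization.mk_mul, Localization.mk_eq_mk_iff, Localization.r_iff_exists]
  refine ⟨1, ?_⟩
  simp
  ring

theorem fr_self (j : ι) : (fr j j : Away (gr ι) (X j)) = 1 := by
  apply val_injective
  rw [fr, Away.val_mk, val_one, ← Localization.mk_one, Localization.mk_eq_mk_iff,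
    Localization.r_iff_exists]
  refine ⟨1, ?_⟩
  simp

/-- Every element of the chart ring is a polynomial in the `x_i / x_j`. -/
theorem exists_eval₂ (j : ι) (z : Away (gr ι) (X j)) :
    ∃ a : MvPolynomial ι ℂ, eval₂ (cz _) (fun i => fr i j) a = z := by
  obtain ⟨n, a, ha, rfl⟩ := Away.mk_surjective (gr ι) (X_mem_gr j) z
  refine ⟨a, ?_⟩
  apply val_injective
  have ha' : a ∈ gr ι n := by
    have h1 : n • 1 = n := by simp
    exact h1 ▸ ha
  set t : Localization.Away (X j : MvPolynomial ι ℂ) :=
    algebraMap (MvPolynomial ι ℂ) _ (X j) with ht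
  have htu : IsUnit t := IsLocalization.Away.algebraMap_isUnit (X j)
  let v : Away (gr ι) (X j) →+* Localization.Away (X j : MvPolynomial ι ℂ) :=
    algebraMap _ _
  have h1 := eval₂_mul_of_mem (v.comp (cz (X j))) (fun i => (fr i j).val) t ha'
  have h2 : (eval₂ (cz _) (fun i => fr i j) a : Away (gr ι) (X j)).val =
      eval₂ (v.comp (cz (X j))) (fun i => (fr i j).val) a :=
    eval₂_comp_left v (cz (X j)) (fun i => fr i j) a
  rw [h2]
  have h4 : eval₂ (v.comp (cz (X j))) (fun i => t * (fr i j).val) a =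
      algebraMap (MvPolynomial ι ℂ) _ a := by
    have h5 : (fun i => t * (fr i j).val) = fun i => algebraMap (MvPolynomial ι ℂ)
        (Localization.Away (X j)) (X i) := by
      funext i
      rw [mul_comm, val_fr]
    have h6 : v.comp (cz (X j)) = (algebraMap (MvPolynomial ι ℂ)
        (Localization.Away (X j : MvPolynomial ι ℂ))).comp C := by
      ext c
      exact val_cz _ c
    rw [h5, h6]
    have h7 := eval₂_comp_left (algebraMap (MvPolynomial ι ℂ)
      (Localization.Away (X j : MvPolynomial ι ℂ))) C X a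
    rw [eval₂_eta] at h7
    exact h7.symm
  rw [h4] at h1
  have h8 : (Away.mk (gr ι) (X_mem_gr j) n a ha).val * t ^ n =
      algebraMap (MvPolynomial ι ℂ) _ a := by
    rw [Away.val_mk, ht, ← map_pow, ← Localization.mk_one_eq_algebraMap,
      ← Localization.mk_one_eq_algebraMap, Localization.mk_mul, Localization.mk_eq_mk_iff,
      Localization.r_iff_exists]
    refine ⟨1, ?_⟩
    simp
    ring
  rw [mul_comm, h1] at h8
  exact ((htu.pow n).mul_left_cancel h8).symm

/-- Two homomorphisms from the chart ring are equal if they agree on the constants and the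
fractions `x_i / x_j`. -/
theorem away_hom_ext {B : Type*} [CommRing B] {j : ι} {φ ψ : Away (gr ι) (X j) →+* B}
    (h0 : φ.comp (cz _) = ψ.comp (cz _)) (h : ∀ i, φ (fr i j) = ψ (fr i j)) : φ = ψ := by
  ext z
  obtain ⟨a, rfl⟩ := exists_eval₂ j z
  have h1 := eval₂_comp_left φ (cz (X j)) (fun i => fr i j) a
  have h2 := eval₂_comp_left ψ (cz (X j)) (fun i => fr i j) a
  have h3 : (φ ∘ fun i => fr i j) = ψ ∘ fun i => fr i j := funext h
  rw [h1, h2, h0, h3]

/-- The homomorphism from the ring of a chart. -/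
noncomputable def awayHom {B : Type*} [CommRing B] (c : ℂ →+* B) (u : ι → B)
    (x : MvPolynomial ι ℂ) (hx : IsUnit (eval₂Hom c u x)) : Away (gr ι) x →+* B :=
  (IsLocalization.Away.lift (S := Localization.Away x) x hx).comp
    (algebraMap (Away (gr ι) x) (Localization.Away x))

theorem awayHom_cz {B : Type*} [CommRing B] (c : ℂ →+* B) (u : ι → B)
    (x : MvPolynomial ι ℂ) (hx : IsUnit (eval₂Hom c u x)) (a : ℂ) :
    awayHom c u x hx (cz x a) = c a := by
  change IsLocalization.Away.lift (S := Localization.Away x) x hx (cz x a).val = _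
  rw [val_cz, IsLocalization.Away.lift_eq]
  simp

theorem awayHom_mk {B : Type*} [CommRing B] (c : ℂ →+* B) (u : ι → B)
    (x : MvPolynomial ι ℂ) (hx : IsUnit (eval₂Hom c u x)) {d : ℕ} (hd : x ∈ gr ι d)
    (n : ℕ) (a : MvPolynomial ι ℂ) (ha : a ∈ gr ι (n • d)) :
    awayHom c u x hx (Away.mk (gr ι) hd n a ha) * eval₂Hom c u x ^ n = eval₂Hom c u a := by
  have h1 : (Away.mk (gr ι) hd n a ha).val *
      algebraMap (MvPolynomial ι ℂ) (Localization.Away x) x ^ n =
      algebraMap (MvPolynomial ι ℂ) _ a := by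
    rw [Away.val_mk, ← map_pow, ← Localization.mk_one_eq_algebraMap,
      ← Localization.mk_one_eq_algebraMap, Localization.mk_mul, Localization.mk_eq_mk_iff,
      Localization.r_iff_exists]
    refine ⟨1, ?_⟩
    simp
    ring
  have h2 := congrArg (IsLocalization.Away.lift (S := Localization.Away x) x hx) h1
  rw [map_mul, map_pow, IsLocalization.Away.lift_eq, IsLocalization.Away.lift_eq] at h2
  exact h2

theorem isUnit_X {B : Type*} [CommRing B] (c : ℂ →+* B) (u : ι → B) {j : ι}
    (hu : u j = 1) : IsUnit (eval₂Hom c u (X j)) := by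
  rw [coe_eval₂Hom, eval₂_X, hu]
  exact isUnit_one

theorem awayHom_fr {B : Type*} [CommRing B] (c : ℂ →+* B) (u : ι → B) {j : ι}
    (hu : u j = 1) (i : ι) : awayHom c u (X j) (isUnit_X c u hu) (fr i j) = u i := by
  have h1 := awayHom_mk c u (X j) (isUnit_X c u hu) (X_mem_gr j) 1 (X i) (X_mem_gr' i)
  rw [coe_eval₂Hom, eval₂_X, eval₂_X, hu, one_pow, mul_one] at h1
  exact h1

theorem not_isUnit_fr {i k : ι} (h : i ≠ k) : ¬ IsUnit (fr k i : Away (gr ι) (X i)) := by
  classical
  intro hu
  have h1 : (Pi.single i 1 : ι → ℂ) i = 1 := Pi.single_eq_same _ _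
  have h2 := hu.map (awayHom (RingHom.id ℂ) (Pi.single i 1) (X i) (isUnit_X _ _ h1))
  rw [awayHom_fr _ _ h1, Pi.single_eq_of_ne h.symm] at h2
  exact not_isUnit_zero h2

variable {m : ℕ}

theorem std_mvPolynomial (m : ℕ) :
    Algebra.IsStandardSmoothOfRelativeDimension m ℂ (MvPolynomial (Fin m) ℂ) := by
  let P : Algebra.PreSubmersivePresentation ℂ (MvPolynomial (Fin m) ℂ) (Fin m) Empty :=
    { toGenerators := Algebra.Generators.mvPolynomial ℂ (Fin m)
      relation := Empty.elim
      span_range_relation_eq_ker := by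
        rw [Algebra.Generators.ker_mvPolynomial, Set.range_eq_empty, Ideal.span_empty]
      map := Empty.elim
      map_inj := fun a => a.elim }
  refine Algebra.SubmersivePresentation.isStandardSmoothOfRelativeDimension ⟨P, ?_⟩ ?_
  · rw [P.jacobian_eq_jacobiMatrix_det, Matrix.det_isEmpty, map_one]
    exact isUnit_one
  · change Nat.card (Fin m) - Nat.card Empty = m
    simp

theorem std_cz (j : Fin (m + 1)) : (cz (X j)).IsStandardSmoothOfRelativeDimension m := by
  let u : Fin (m + 1) → MvPolynomial (Fin m) ℂ := Fin.insertNth j 1 X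
  have hu : u j = 1 := Fin.insertNth_apply_same _ _ _
  have hu' : ∀ k, u (j.succAbove k) = X k := fun k => Fin.insertNth_apply_succAbove _ _ _ k
  let ψ := awayHom C u (X j) (isUnit_X C u hu)
  let θ : MvPolynomial (Fin m) ℂ →+* Away (gr (Fin (m + 1))) (X j) :=
    eval₂Hom (cz _) fun k => fr (j.succAbove k) j
  have h1 : θ.comp ψ = RingHom.id _ := by
    refine away_hom_ext (RingHom.ext fun c => ?_) fun i => ?_
    · change θ (ψ (cz _ c)) = cz _ c
      rw [awayHom_cz]
      exact eval₂_C _ _ _
    · change θ (ψ (fr i j)) = fr i j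
      rw [awayHom_fr _ _ hu]
      rcases Fin.eq_self_or_eq_succAbove j i with rfl | ⟨k, rfl⟩
      · rw [hu, map_one, fr_self]
      · rw [hu']
        exact eval₂_X _ _ _
  have h2 : ψ.comp θ = RingHom.id _ := by
    refine MvPolynomial.ringHom_ext (fun c => ?_) fun k => ?_
    · change ψ (eval₂ _ _ (C c)) = C c
      rw [eval₂_C, awayHom_cz]
    · change ψ (eval₂ _ _ (X k)) = X k
      rw [eval₂_X, awayHom_fr _ _ hu, hu']
  have h3 : (C : ℂ →+* MvPolynomial (Fin m) ℂ).IsStandardSmoothOfRelativeDimension m :=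
    (RingHom.isStandardSmoothOfRelativeDimension_algebraMap m).2 (std_mvPolynomial m)
  have h4 := RingHom.isStandardSmoothOfRelativeDimension_respectsIso.1 _
    (RingEquiv.ofRingHom θ ψ h1 h2) h3
  have h5 : (RingEquiv.ofRingHom θ ψ h1 h2).toRingHom.comp C = cz (X j) :=
    RingHom.ext fun c => eval₂_C _ _ _
  exact h5 ▸ h4

end Vale.Agent.P271S
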